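import Mathlib

set_option linter.unusedSectionVars false

/-!
Seymour's second neighbourhood conjecture (P038), self-contained.
`N a` is the closed out-neighbourhood of `a`.
-/

open Finset

namespace Vale.Agent.P038.H628

variable {V : Type*} [Fintype V] [DecidableEq V]

/-- closed out-neighbourhood of a set -/
def nn (N : V → Finset V) (S : Finset V) : Finset V := S.biUnion N

/-- size of the new neighbours of a set -/
def cc (N : V → Finset V) (S : Finset V) : ℤ := ((nn N S).card : ℤ) - S.card

theorem mem_nn {N : V → Finset V} {S : Finset V} {x : V} :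
    x ∈ nn N S ↔ ∃ a ∈ S, x ∈ N a := by
  simp [nn]

theorem nn_mono {N : V → Finset V} {S T : Finset V} (h : S ⊆ T) : nn N S ⊆ nn N T := by
  intro x hx
  rw [mem_nn] at *
  obtain ⟨a, ha, hx⟩ := hx
  exact ⟨a, h ha, hx⟩

theorem subset_nn {N : V → Finset V} (hr : ∀ a, a ∈ N a) (S : Finset V) : S ⊆ nn N S := by
  intro x hx
  rw [mem_nn]
  exact ⟨x, hx, hr x⟩

theorem nn_union (N : V → Finset V) (S T : Finset V) : nn N (S ∪ T) = nn N S ∪ nn N T := by
  ext x
  simp only [mem_nn, mem_union]
  constructor
  · rintro ⟨a, ha | ha, hx⟩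
    · exact Or.inl ⟨a, ha, hx⟩
    · exact Or.inr ⟨a, ha, hx⟩
  · rintro (⟨a, ha, hx⟩ | ⟨a, ha, hx⟩)
    · exact ⟨a, Or.inl ha, hx⟩
    · exact ⟨a, Or.inr ha, hx⟩

theorem cc_submod (N : V → Finset V) (S T : Finset V) :
    cc N (S ∪ T) + cc N (S ∩ T) ≤ cc N S + cc N T := by
  unfold cc
  have h1 : nn N (S ∩ T) ⊆ nn N S ∩ nn N T :=
    subset_inter (nn_mono inter_subset_left) (nn_mono inter_subset_right)
  have h2 := card_le_card h1
  have h3 := card_union_add_card_inter (nn N S) (nn N T)
  have h4 := card_union_add_card_inter S T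
  rw [nn_union]
  zify at *
  linarith

/-! ### Minimum over an interval -/

noncomputable def mn (f : Finset V → ℤ) (lo hi : Finset V) : ℤ :=
  if h : lo ⊆ hi then (Finset.Icc lo hi).inf' ⟨lo, by simp [h]⟩ f else 0

theorem mn_le {f : Finset V → ℤ} {lo hi R : Finset V} (h1 : lo ⊆ R) (h2 : R ⊆ hi) :
    mn f lo hi ≤ f R := by
  unfold mn
  rw [dif_pos (h1.trans h2)]
  exact Finset.inf'_le _ (by simp [h1, h2])

theorem mn_mem (f : Finset V → ℤ) {lo hi : Finset V} (h : lo ⊆ hi) :
    ∃ R, lo ⊆ R ∧ R ⊆ hi ∧ mn f lo hi = f R := by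
  unfold mn
  rw [dif_pos h]
  obtain ⟨R, hR, h2⟩ := Finset.exists_mem_eq_inf' (s := Finset.Icc lo hi) ⟨lo, by simp [h]⟩ f
  rw [mem_Icc] at hR
  exact ⟨R, hR.1, hR.2, h2⟩

theorem mn_mono {f : Finset V → ℤ} {lo lo' hi : Finset V} (h : lo ⊆ lo') (h' : lo' ⊆ hi) :
    mn f lo hi ≤ mn f lo' hi := by
  obtain ⟨R, h1, h2, h3⟩ := mn_mem f h'
  rw [h3]
  exact mn_le (h.trans h1) h2

/-! ### The main lemma -/

/-- erosion of the row index -/
def er (N : V → Finset V) (U : V → Finset V) (z : V) : Finset V :=
  univ.filter (fun x => ∀ a, z ∈ N a → x ∈ U a)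

theorem mem_er {N : V → Finset V} {U : V → Finset V} {z x : V} :
    x ∈ er N U z ↔ ∀ a, z ∈ N a → x ∈ U a := by
  simp [er]

theorem er_sub {N : V → Finset V} {U : V → Finset V} {z a : V} (h : z ∈ N a) :
    er N U z ⊆ U a := by
  intro x hx
  exact mem_er.1 hx a h

theorem er_mono {N : V → Finset V} {L U : V → Finset V} (h : ∀ a, L a ⊆ U a) (z : V) :
    er N L z ⊆ er N U z := by
  intro x hx
  rw [mem_er] at *
  exact fun a ha => h a (hx a ha)

theorem er_opt {N : V → Finset V} {L U : V → Finset V}
    (hLU : ∀ a, L a ⊆ U a)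
    (r : ∀ a R, L a ⊆ R → R ⊆ U a → cc N (L a) ≤ cc N R) (z : V) (R : Finset V)
    (h1 : er N L z ⊆ R) (h2 : R ⊆ er N U z) : cc N (er N L z) ≤ cc N R := by
  have key : ∀ Q : Finset V, (∀ a ∈ Q, z ∈ N a) →
      cc N (R ∩ univ.filter (fun x => ∀ a ∈ Q, x ∈ L a)) ≤ cc N R := by
    intro Q
    induction Q using Finset.induction_on with
    | empty => intro _; simp
    | insert a Q haQ ih =>
      intro hQ
      have ih' := ih (fun b hb => hQ b (mem_insert_of_mem hb))
      set S := R ∩ univ.filter (fun x => ∀ a ∈ Q, x ∈ L a) with hS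
      have e : R ∩ univ.filter (fun x => ∀ b ∈ insert a Q, x ∈ L b) = S ∩ L a := by
        ext x
        simp only [hS, mem_inter, mem_filter, mem_univ, true_and, mem_insert, forall_eq_or_imp]
        tauto
      rw [e]
      have hz : z ∈ N a := hQ a (mem_insert_self _ _)
      have hSU : S ∪ L a ⊆ U a := by
        apply union_subset
        · exact (inter_subset_left.trans h2).trans (er_sub hz)
        · exact hLU a
      have := r a (S ∪ L a) subset_union_right hSU
      have h3 := cc_submod N S (L a)
      linarith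
  have := key (univ.filter (fun a => z ∈ N a)) (by simp)
  have e : R ∩ univ.filter (fun x => ∀ a ∈ univ.filter (fun a => z ∈ N a), x ∈ L a)
      = er N L z := by
    ext x
    simp only [mem_inter, mem_filter, mem_univ, true_and, er]
    constructor
    · rintro ⟨_, h⟩
      exact h
    · intro h
      exact ⟨h1 (mem_er.2 h), h⟩
  rwa [e] at this


theorem main_lemma {N : V → Finset V} {L U : V → Finset V} (hLU : ∀ a, L a ⊆ U a)
    (r : ∀ a R, L a ⊆ R → R ⊆ U a → cc N (L a) ≤ cc N R)
    (k : ∀ (x : V) (T : Finset V), (∀ a ∈ T, x ∈ U a ∧ x ∉ L a) →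
      T.card ≤ (univ.filter (fun z => x ∈ er N U z ∧ ∃ a ∈ T, z ∈ N a)).card) :
    ∑ a, (cc N (U a) - cc N (L a)) ≤ ∑ z, (cc N (er N U z) - cc N (er N L z)) := by
  classical
  set F : V → Finset V → ℤ := fun a S => mn (cc N) (L a ∪ (S ∩ U a)) (U a) with hF
  set F' : V → Finset V → ℤ := fun z S =>
    mn (cc N) (er N L z ∪ (S ∩ er N U z)) (er N U z) with hF'
  have hloF : ∀ a S, L a ∪ (S ∩ U a) ⊆ U a := fun a S =>
    union_subset (hLU a) inter_subset_right
  have hloF' : ∀ z S, er N L z ∪ (S ∩ er N U z) ⊆ er N U z := fun z S =>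
    union_subset (er_mono hLU z) inter_subset_right
  have step : ∀ S : Finset V,
      ∑ a, (F a S - F a ∅) ≤ ∑ z, (F' z S - F' z ∅) := by
    intro S
    induction S using Finset.induction_on with
    | empty => simp
    | insert x S hx ih =>
      have hmain : ∑ a, (F a (insert x S) - F a S) ≤ ∑ z, (F' z (insert x S) - F' z S) := by
        have h0 : ∀ z, 0 ≤ F' z (insert x S) - F' z S := by
          intro z
          have : F' z S ≤ F' z (insert x S) := by
            apply mn_mono _ (hloF' z _)
            exact union_subset_union subset_rfl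
              (inter_subset_inter (subset_insert _ _) subset_rfl)
          linarith
        have h1 : ∀ a, ¬ (x ∈ U a ∧ x ∉ L a) → F a (insert x S) - F a S = 0 := by
          intro a ha
          have e : L a ∪ (insert x S ∩ U a) = L a ∪ (S ∩ U a) := by
            ext y
            simp only [mem_union, mem_inter, mem_insert]
            constructor
            · rintro (h | ⟨rfl | h, h'⟩)
              · exact Or.inl h
              · left
                by_contra hc
                exact ha ⟨h', hc⟩
              · exact Or.inr ⟨h, h'⟩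
            · rintro (h | ⟨h, h'⟩)
              · exact Or.inl h
              · exact Or.inr ⟨Or.inr h, h'⟩
          simp only [hF, e, sub_self]
        have key : ∀ a z, z ∈ N a → x ∈ er N U z →
            F a (insert x S) - F a S ≤ F' z (insert x S) - F' z S := by
          intro a z haz hxz
          obtain ⟨R, hR1, hR2, hR3⟩ := mn_mem (cc N) (hloF' z (insert x S))
          obtain ⟨R', hR1', hR2', hR3'⟩ := mn_mem (cc N) (hloF a S)
          have hUU : er N U z ⊆ U a := er_sub haz
          have hLL : er N L z ⊆ L a := er_sub haz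
          have hxR : x ∈ R := hR1 (mem_union_right _ (mem_inter.2 ⟨mem_insert_self _ _, hxz⟩))
          have i1 : F a (insert x S) ≤ cc N (R ∪ R') := by
            apply mn_le
            · intro y hy
              rw [mem_union, mem_inter, mem_insert] at hy
              rcases hy with hy | ⟨rfl | hy, hy'⟩
              · exact mem_union_right _ (hR1' (mem_union_left _ hy))
              · exact mem_union_left _ hxR
              · exact mem_union_right _ (hR1' (mem_union_right _ (mem_inter.2 ⟨hy, hy'⟩)))
            · exact union_subset (hR2.trans hUU) hR2'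
          have i2 : F' z S ≤ cc N (R ∩ R') := by
            apply mn_le
            · intro y hy
              rw [mem_union, mem_inter] at hy
              rw [mem_inter]
              rcases hy with hy | ⟨hy, hy'⟩
              · exact ⟨hR1 (mem_union_left _ hy), hR1' (mem_union_left _ (hLL hy))⟩
              · exact ⟨hR1 (mem_union_right _ (mem_inter.2 ⟨mem_insert_of_mem hy, hy'⟩)),
                  hR1' (mem_union_right _ (mem_inter.2 ⟨hy, hUU hy'⟩))⟩
            · exact inter_subset_left.trans hR2
          have i3 := cc_submod N R R'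
          have e1 : F' z (insert x S) = cc N R := hR3
          have e2 : F a S = cc N R' := hR3'
          linarith
        -- Hall
        let ι := {a : V // x ∈ U a ∧ x ∉ L a}
        let t : ι → Finset V := fun a => (N a.1).filter (fun z => x ∈ er N U z)
        have hall : ∀ s : Finset ι, s.card ≤ (s.biUnion t).card := by
          intro s
          have hk := k x (s.map (Function.Embedding.subtype _)) (by
            intro a ha
            rw [mem_map] at ha
            obtain ⟨b, _, rfl⟩ := ha
            exact b.2)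
          rw [card_map] at hk
          refine hk.trans (card_le_card ?_)
          intro z hz
          simp only [mem_filter, mem_univ, true_and, mem_map, Function.Embedding.coe_subtype]
            at hz
          obtain ⟨hz1, a, ⟨b, hb, rfl⟩, hz2⟩ := hz
          rw [mem_biUnion]
          exact ⟨b, hb, mem_filter.2 ⟨hz2, hz1⟩⟩
        obtain ⟨f, hfinj, hf⟩ :=
          (Finset.all_card_le_biUnion_card_iff_exists_injective t).1 hall
        have e1 : ∑ a, (F a (insert x S) - F a S)
            = ∑ a : ι, (F a.1 (insert x S) - F a.1 S) := by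
          rw [← Finset.sum_subtype (univ.filter (fun a => x ∈ U a ∧ x ∉ L a))
            (p := fun a => x ∈ U a ∧ x ∉ L a) (by simp)
            (fun a => F a (insert x S) - F a S)]
          symm
          apply Finset.sum_subset (filter_subset _ _)
          intro a _ ha
          apply h1 a
          intro h
          exact ha (mem_filter.2 ⟨mem_univ _, h⟩)
        have e2 : ∑ a : ι, (F a.1 (insert x S) - F a.1 S)
            ≤ ∑ a : ι, (F' (f a) (insert x S) - F' (f a) S) := by
          apply Finset.sum_le_sum
          intro a _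
          have := hf a
          rw [mem_filter] at this
          exact key a.1 (f a) this.1 this.2
        have e3 : ∑ a : ι, (F' (f a) (insert x S) - F' (f a) S)
            = ∑ z ∈ univ.map ⟨f, hfinj⟩, (F' z (insert x S) - F' z S) := by
          rw [Finset.sum_map]
          rfl
        have e4 : ∑ z ∈ univ.map ⟨f, hfinj⟩, (F' z (insert x S) - F' z S)
            ≤ ∑ z, (F' z (insert x S) - F' z S) :=
          Finset.sum_le_sum_of_subset_of_nonneg (subset_univ _) (fun z _ _ => h0 z)
        linarith
      have s1 : ∑ a, (F a (insert x S) - F a ∅)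
          = ∑ a, (F a (insert x S) - F a S) + ∑ a, (F a S - F a ∅) := by
        rw [← Finset.sum_add_distrib]
        exact Finset.sum_congr rfl (fun a _ => by ring)
      have s2 : ∑ z, (F' z (insert x S) - F' z ∅)
          = ∑ z, (F' z (insert x S) - F' z S) + ∑ z, (F' z S - F' z ∅) := by
        rw [← Finset.sum_add_distrib]
        exact Finset.sum_congr rfl (fun a _ => by ring)
      linarith
  have hst := step univ
  have a1 : ∀ a, F a univ = cc N (U a) := by
    intro a
    obtain ⟨R, h1, h2, h3⟩ := mn_mem (cc N) (hloF a univ)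
    have : R = U a := by
      apply subset_antisymm h2
      intro y hy
      exact h1 (mem_union_right _ (mem_inter.2 ⟨mem_univ _, hy⟩))
    simp only [hF]
    rw [h3, this]
  have a2 : ∀ a, F a ∅ = cc N (L a) := by
    intro a
    apply le_antisymm
    · apply mn_le
      · simp
      · exact hLU a
    · obtain ⟨R, h1, h2, h3⟩ := mn_mem (cc N) (hloF a ∅)
      simp only [hF]
      rw [h3]
      exact r a R (subset_union_left.trans h1) h2
  have a3 : ∀ z, F' z univ = cc N (er N U z) := by
    intro a
    obtain ⟨R, h1, h2, h3⟩ := mn_mem (cc N) (hloF' a univ)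
    have : R = er N U a := by
      apply subset_antisymm h2
      intro y hy
      exact h1 (mem_union_right _ (mem_inter.2 ⟨mem_univ _, hy⟩))
    simp only [hF']
    rw [h3, this]
  have a4 : ∀ z, F' z ∅ = cc N (er N L z) := by
    intro z
    apply le_antisymm
    · apply mn_le
      · simp
      · exact er_mono hLU z
    · obtain ⟨R, h1, h2, h3⟩ := mn_mem (cc N) (hloF' z ∅)
      simp only [hF']
      rw [h3]
      exact er_opt hLU r z R (subset_union_left.trans h1) h2
  simpa only [a1, a2, a3, a4] using hst


/-! ### Compatible pairs -/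

structure Pair (N : V → Finset V) (B C : V → Finset V) : Prop where
  hB : ∀ a, N a ⊆ B a
  hC : ∀ a, N a ⊆ C a
  comp : ∀ a b, a ≠ b → ¬ (b ∈ B a ∧ a ∈ C b)

noncomputable def cost (N : V → Finset V) (B C : V → Finset V) : ℤ :=
  ∑ a, cc N (B a) + ∑ a, cc N (C a)

theorem sum_update (N : V → Finset V) (B : V → Finset V) (a : V) (R : Finset V) :
    ∑ x, cc N (Function.update B a R x) = ∑ x, cc N (B x) - cc N (B a) + cc N R := by
  rw [← Finset.add_sum_erase univ (fun x => cc N (Function.update B a R x)) (mem_univ a),
    ← Finset.add_sum_erase univ (fun x => cc N (B x)) (mem_univ a)]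
  simp only [Function.update_self]
  have : ∑ x ∈ univ.erase a, cc N (Function.update B a R x)
      = ∑ x ∈ univ.erase a, cc N (B x) := by
    apply Finset.sum_congr rfl
    intro x hx
    rw [Function.update_of_ne (ne_of_mem_erase hx)]
  rw [this]
  ring

/-- the upper relation of a pair -/
def up (C : V → Finset V) (a : V) : Finset V := univ.filter (fun b => b = a ∨ a ∉ C b)

theorem mem_up {C : V → Finset V} {a b : V} : b ∈ up C a ↔ b = a ∨ a ∉ C b := by
  simp [up]

section
variable {N : V → Finset V} {B C : V → Finset V}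

theorem Pair.sub_up (h : Pair N B C) (a : V) : B a ⊆ up C a := by
  intro b hb
  rw [mem_up]
  by_contra hc
  push Not at hc
  exact h.comp a b (Ne.symm hc.1) ⟨hb, hc.2⟩

theorem Pair.opt_row (h : Pair N B C)
    (hopt : ∀ B' C', Pair N B' C' → cost N B C ≤ cost N B' C') (a : V) (R : Finset V)
    (h1 : B a ⊆ R) (h2 : R ⊆ up C a) : cc N (B a) ≤ cc N R := by
  have hp : Pair N (Function.update B a R) C := by
    refine ⟨?_, h.hC, ?_⟩
    · intro b
      by_cases hb : b = a
      · subst hb
        rw [Function.update_self]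
        exact (h.hB b).trans h1
      · rw [Function.update_of_ne hb]
        exact h.hB b
    · intro b x hbx
      by_cases hb : b = a
      · subst hb
        rw [Function.update_self]
        rintro ⟨hx, hx'⟩
        rcases mem_up.1 (h2 hx) with h3 | h3
        · exact hbx h3.symm
        · exact h3 hx'
      · rw [Function.update_of_ne hb]
        exact h.comp b x hbx
  have := hopt _ _ hp
  unfold cost at this
  rw [sum_update] at this
  linarith

theorem Pair.opt_col (hr : ∀ a, a ∈ N a) (h : Pair N B C)
    (hopt : ∀ B' C', Pair N B' C' → cost N B C ≤ cost N B' C') (x : V) (T : Finset V)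
    (hT : ∀ a ∈ T, x ∈ up C a ∧ x ∉ B a) :
    T.card ≤ (univ.filter (fun z => x ∈ er N (up C) z ∧ ∃ a ∈ T, z ∈ N a)).card := by
  have hp : Pair N B (Function.update C x (C x ∪ T)) := by
    refine ⟨h.hB, ?_, ?_⟩
    · intro b
      by_cases hb : b = x
      · subst hb
        rw [Function.update_self]
        exact (h.hC b).trans subset_union_left
      · rw [Function.update_of_ne hb]
        exact h.hC b
    · intro a b hab
      by_cases hb : b = x
      · subst hb
        rw [Function.update_self]
        rintro ⟨h1, h2⟩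
        rcases mem_union.1 h2 with h3 | h3
        · exact h.comp a b hab ⟨h1, h3⟩
        · exact (hT a h3).2 h1
      · rw [Function.update_of_ne hb]
        exact h.comp a b hab
  have h1 := hopt _ _ hp
  unfold cost at h1
  rw [sum_update] at h1
  have h2 : cc N (C x) ≤ cc N (C x ∪ T) := by linarith
  have hdisj : Disjoint (C x) T := by
    rw [Finset.disjoint_left]
    intro a ha haT
    obtain ⟨h3, h4⟩ := hT a haT
    rcases mem_up.1 h3 with h5 | h5
    · subst h5
      exact h4 (h.hB _ (hr _))
    · exact h5 ha
  have h3 : (C x ∪ T).card = (C x).card + T.card := card_union_of_disjoint hdisj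
  have h4 : (nn N (C x ∪ T)).card ≤ (nn N (C x)).card +
      (univ.filter (fun z => x ∈ er N (up C) z ∧ ∃ a ∈ T, z ∈ N a)).card := by
    refine le_trans (card_le_card ?_) (card_union_le _ _)
    intro z hz
    rw [nn_union, mem_union] at hz
    rw [mem_union]
    by_cases hc : z ∈ nn N (C x)
    · exact Or.inl hc
    · right
      rcases hz with hz | hz
      · exact absurd hz hc
      · rw [mem_filter]
        refine ⟨mem_univ _, ?_, mem_nn.1 hz⟩
        rw [mem_er]
        intro a ha
        rw [mem_up]
        right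
        intro hac
        exact hc (mem_nn.2 ⟨a, hac, ha⟩)
  unfold cc at h2
  zify at *
  linarith

theorem Pair.self_mem_er (hNB : ∀ a, N a ⊆ B a) (z : V) : z ∈ er N B z := by
  rw [mem_er]
  intro a ha
  exact hNB a ha

theorem Pair.eroded (hr : ∀ a, a ∈ N a) (h : Pair N B C) :
    Pair N (fun a => nn N (er N B a)) (fun a => nn N (er N C a)) := by
  refine ⟨?_, ?_, ?_⟩
  · intro a x hx
    exact mem_nn.2 ⟨a, Pair.self_mem_er h.hB a, hx⟩
  · intro a x hx
    exact mem_nn.2 ⟨a, Pair.self_mem_er h.hC a, hx⟩
  · rintro a b hab ⟨h1, h2⟩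
    obtain ⟨x, hx, hbx⟩ := mem_nn.1 h1
    obtain ⟨y, hy, hay⟩ := mem_nn.1 h2
    rw [mem_er] at hx hy
    have e1 : x ∈ B y := hx y hay
    have e2 : y ∈ C x := hy x hbx
    have exy : x = y := by
      by_contra hc
      exact h.comp y x (Ne.symm hc) ⟨e1, e2⟩
    subst exy
    have ea : a = x := by
      by_contra hc
      exact h.comp a x hc ⟨hx a (hr a), h.hC x hay⟩
    have eb : x = b := by
      by_contra hc
      exact h.comp x b hc ⟨h.hB x hbx, hy b (hr b)⟩
    exact hab (ea.trans eb)

theorem sum_rows_cols (S : V → Finset V) :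
    ∑ a, ((S a).card : ℤ) = ∑ b, ((univ.filter (fun a => b ∈ S a)).card : ℤ) := by
  have h1 : ∀ a, ((S a).card : ℤ) = ∑ b, if b ∈ S a then (1 : ℤ) else 0 := by
    intro a
    rw [Finset.sum_ite_mem]
    simp
  have h2 : ∀ b, ((univ.filter (fun a => b ∈ S a)).card : ℤ)
      = ∑ a, if b ∈ S a then (1 : ℤ) else 0 := by
    intro b
    rw [Finset.card_filter]
    push_cast
    rfl
  simp only [h1, h2]
  exact Finset.sum_comm

theorem card_compl_union_single {S : Finset V} {z : V} (hz : z ∈ S) :
    ((((univ \ S) ∪ {z}).card : ℕ) : ℤ) = (Fintype.card V : ℤ) - S.card + 1 := by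
  have hd : Disjoint (univ \ S) {z} := by
    rw [Finset.disjoint_singleton_right]
    simp [hz]
  rw [card_union_of_disjoint hd, card_singleton, card_sdiff_of_subset (subset_univ _),
    card_univ]
  have : S.card ≤ Fintype.card V := card_le_univ S
  push_cast [Nat.cast_sub this]
  ring

theorem Pair.key (hr : ∀ a, a ∈ N a) (h : Pair N B C)
    (hopt : ∀ B' C', Pair N B' C' → cost N B C ≤ cost N B' C') :
    ∑ a, cc N (er N B a) + ∑ a, cc N (er N C a) ≤ cost N B C := by
  have hml := main_lemma (N := N) (L := B) (U := up C) h.sub_up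
    (fun a R h1 h2 => h.opt_row hopt a R h1 h2)
    (fun x T hT => h.opt_col hr hopt x T hT)
  simp only [Finset.sum_sub_distrib] at hml
  -- (i)
  have hi : ∑ a, ((up C a).card : ℤ) - ∑ a, ((er N (up C) a).card : ℤ)
      = ∑ b, cc N (C b) := by
    rw [sum_rows_cols (fun a => up C a), sum_rows_cols (fun a => er N (up C) a),
      ← Finset.sum_sub_distrib]
    apply Finset.sum_congr rfl
    intro b _
    have e1 : univ.filter (fun a => b ∈ up C a) = (univ \ C b) ∪ {b} := by
      ext a
      simp only [mem_filter, mem_univ, true_and, mem_up, mem_union, mem_sdiff,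
        mem_singleton]
      constructor
      · rintro (h1 | h1)
        · exact Or.inr h1.symm
        · exact Or.inl h1
      · rintro (h1 | h1)
        · exact Or.inr h1
        · exact Or.inl h1.symm
    have e2 : univ.filter (fun z => b ∈ er N (up C) z) = (univ \ nn N (C b)) ∪ {b} := by
      ext z
      simp only [mem_filter, mem_univ, true_and, mem_union, mem_sdiff, mem_singleton]
      constructor
      · intro hz
        by_cases hc : z ∈ nn N (C b)
        · right
          obtain ⟨a, ha, hza⟩ := mem_nn.1 hc
          rw [mem_er] at hz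
          rcases mem_up.1 (hz a hza) with h1 | h1
          · subst h1
            rcases mem_up.1 (hz z (hr z)) with h2 | h2
            · exact h2.symm
            · exact absurd (h.hC _ hza) h2
          · exact absurd ha h1
        · exact Or.inl hc
      · rintro (hz | hz)
        · rw [mem_er]
          intro a ha
          rw [mem_up]
          right
          intro hac
          exact hz (mem_nn.2 ⟨a, hac, ha⟩)
        · subst hz
          rw [mem_er]
          intro a ha
          rw [mem_up]
          by_contra hc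
          push Not at hc
          exact h.comp a z (Ne.symm hc.1) ⟨h.hB a ha, hc.2⟩
    have hbC : b ∈ C b := h.hC b (hr b)
    have hbN : b ∈ nn N (C b) := subset_nn hr _ hbC
    rw [e1, e2, card_compl_union_single hbC, card_compl_union_single hbN]
    unfold cc
    ring
  -- (ii)
  have hii : ∑ z, cc N (er N C z) ≤
      ∑ a, ((nn N (up C a)).card : ℤ) - ∑ a, ((nn N (er N (up C) a)).card : ℤ) := by
    rw [sum_rows_cols (fun a => nn N (up C a)),
      sum_rows_cols (fun a => nn N (er N (up C) a)), ← Finset.sum_sub_distrib]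
    apply Finset.sum_le_sum
    intro z _
    have hzY : z ∈ er N C z := Pair.self_mem_er h.hC z
    have hzN : z ∈ nn N (er N C z) := subset_nn hr _ hzY
    have e1 : (univ \ er N C z) ∪ {z} ⊆ univ.filter (fun x => z ∈ nn N (up C x)) := by
      intro x hx
      rw [mem_union, mem_sdiff, mem_singleton] at hx
      rw [mem_filter]
      refine ⟨mem_univ _, ?_⟩
      rcases hx with ⟨_, hx⟩ | hx
      · rw [mem_er] at hx
        push Not at hx
        obtain ⟨a, ha, hxa⟩ := hx
        exact mem_nn.2 ⟨a, mem_up.2 (Or.inr hxa), ha⟩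
      · subst hx
        exact mem_nn.2 ⟨x, mem_up.2 (Or.inl rfl), hr x⟩
    have e2 : univ.filter (fun x => z ∈ nn N (er N (up C) x))
        ⊆ (univ \ nn N (er N C z)) ∪ {z} := by
      intro x hx
      rw [mem_filter] at hx
      rw [mem_union, mem_sdiff, mem_singleton]
      by_cases hc : x ∈ nn N (er N C z)
      · right
        obtain ⟨y, hy, hzy⟩ := mem_nn.1 hx.2
        obtain ⟨v, hv, hxv⟩ := mem_nn.1 hc
        rw [mem_er] at hy hv
        have hvy : v ∈ C y := hv y hzy
        have eyv : y = v := by
          rcases mem_up.1 (hy v hxv) with h1 | h1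
          · exact h1
          · exact absurd hvy h1
        subst eyv
        have eyz : y = z := by
          by_contra hne
          exact h.comp y z hne ⟨h.hB y hzy, hv z (hr z)⟩
        subst eyz
        rcases mem_up.1 (hy x (hr x)) with h1 | h1
        · exact h1.symm
        · exact absurd (h.hC _ hxv) h1
      · exact Or.inl ⟨mem_univ _, hc⟩
    have f1 := card_le_card e1
    have f2 := card_le_card e2
    have g1 := card_compl_union_single hzY
    have g2 := card_compl_union_single hzN
    unfold cc
    zify at f1 f2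
    linarith
  have j1 : ∑ a, cc N (up C a) = ∑ a, ((nn N (up C a)).card : ℤ)
      - ∑ a, ((up C a).card : ℤ) := by
    simp only [cc, Finset.sum_sub_distrib]
  have j2 : ∑ a, cc N (er N (up C) a) = ∑ a, ((nn N (er N (up C) a)).card : ℤ)
      - ∑ a, ((er N (up C) a).card : ℤ) := by
    simp only [cc, Finset.sum_sub_distrib]
  unfold cost
  linarith

end

/-! ### The contradiction from strict concavity -/

theorem no_strict {N : V → Finset V} [Nonempty V] (hr : ∀ a, a ∈ N a)
    (ha : ∀ a b, b ∈ N a → a ∈ N b → a = b)
    (hout : ∀ v, ∃ u ∈ N v, u ≠ v)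
    (g : ∀ X : Finset V, nn N X ≠ X → cc N (nn N X) < cc N X) : False := by
  classical
  let P := {p : (V → Finset V) × (V → Finset V) // Pair N p.1 p.2}
  have hne : Nonempty P := by
    refine ⟨⟨(N, N), ⟨fun _ => subset_rfl, fun _ => subset_rfl, ?_⟩⟩⟩
    rintro a b hab ⟨h1, h2⟩
    exact hab (ha a b h1 h2)
  obtain ⟨⟨⟨B, C⟩, h⟩, hmin⟩ := Finite.exists_min (fun p : P => cost N p.1.1 p.1.2)
  have h : Pair N B C := h
  have hopt : ∀ B' C', Pair N B' C' → cost N B C ≤ cost N B' C' :=
    fun B' C' h' => hmin ⟨(B', C'), h'⟩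
  have k1 := h.key hr hopt
  have k2 := hopt _ _ (h.eroded hr)
  have hle : ∀ X : Finset V, cc N (nn N X) ≤ cc N X := by
    intro X
    by_cases hX : nn N X = X
    · rw [hX]
    · exact (g X hX).le
  have k3 : ∑ a, cc N (nn N (er N C a)) ≤ ∑ a, cc N (er N C a) :=
    Finset.sum_le_sum (fun a _ => hle _)
  have k4 : ∑ a, cc N (nn N (er N B a)) < ∑ a, cc N (er N B a) := by
    apply Finset.sum_lt_sum (fun a _ => hle _)
    by_contra hcon
    push Not at hcon
    have hcl : ∀ z, nn N (er N B z) = er N B z := by
      intro z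
      by_contra hz
      exact absurd (g _ hz) (not_lt.2 (hcon z (mem_univ z)))
    -- minimal closed set
    obtain ⟨S, hS, hSmin⟩ := Finset.exists_min_image
      (univ.filter (fun S : Finset V => S.Nonempty ∧ nn N S ⊆ S)) Finset.card
      ⟨univ, by simp⟩
    rw [mem_filter] at hS
    obtain ⟨_, ⟨z, hz⟩, hSc⟩ := hS
    have hu : ∃ u ∈ S, u ≠ z ∧ z ∈ N u := by
      by_contra hc
      push Not at hc
      have h1 : S.erase z ∈ univ.filter (fun S : Finset V => S.Nonempty ∧ nn N S ⊆ S) := by
        rw [mem_filter]
        refine ⟨mem_univ _, ?_, ?_⟩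
        · obtain ⟨u, hu, huz⟩ := hout z
          exact ⟨u, mem_erase.2 ⟨huz, hSc (mem_nn.2 ⟨z, hz, hu⟩)⟩⟩
        · intro x hx
          obtain ⟨u, hu, hxu⟩ := mem_nn.1 hx
          rw [mem_erase] at hu ⊢
          refine ⟨?_, hSc (mem_nn.2 ⟨u, hu.2, hxu⟩)⟩
          rintro rfl
          exact hc u hu.2 hu.1 hxu
      have h2 := hSmin _ h1
      have h3 := card_erase_lt_of_mem hz
      omega
    obtain ⟨u, huS, huz, hzu⟩ := hu
    have h1 : (er N B z ∩ S) ∈ univ.filter (fun S : Finset V => S.Nonempty ∧ nn N S ⊆ S) := by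
      rw [mem_filter]
      refine ⟨mem_univ _, ⟨z, mem_inter.2 ⟨Pair.self_mem_er h.hB z, hz⟩⟩, ?_⟩
      apply subset_inter
      · exact (nn_mono inter_subset_left).trans (hcl z).subset
      · exact (nn_mono inter_subset_right).trans hSc
    have h2 := hSmin _ h1
    have h3 : er N B z ∩ S = S := eq_of_subset_of_card_le inter_subset_right h2
    have h4 : u ∈ er N B z := by
      have : u ∈ er N B z ∩ S := by rw [h3]; exact huS
      exact (mem_inter.1 this).1
    exact h.comp z u (Ne.symm huz) ⟨er_sub (hr z) h4, h.hC u hzu⟩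
  unfold cost at k1 k2
  linarith


/-! ### Arc-minimal counterexamples -/

theorem concave {N : V → Finset V} (hr : ∀ a, a ∈ N a)
    (hce : ∀ v, (nn N (N v)).card + 1 < 2 * (N v).card)
    (hmin : ∀ N' : V → Finset V, (∀ a, a ∈ N' a) → (∀ a, N' a ⊆ N a) → N' ≠ N →
      ¬ ∀ v, (nn N' (N' v)).card + 1 < 2 * (N' v).card)
    (X : Finset V) (hX : nn N X ≠ X) : cc N (nn N X) < cc N X := by
  classical
  by_contra hcon
  push Not at hcon
  set L := nn N X \ X with hL
  have hXX : X ⊆ nn N X := subset_nn hr X
  have hLX : nn N X = X ∪ L := by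
    rw [hL, union_sdiff_of_subset hXX]
  have hdisj : Disjoint X L := by
    rw [hL]
    exact disjoint_sdiff
  have hLne : L.Nonempty := by
    rw [Finset.nonempty_iff_ne_empty]
    intro h0
    rw [h0, union_empty] at hLX
    exact hX hLX
  set d : Finset V → ℤ := fun T => ((nn N T \ X).card : ℤ) - 2 * T.card with hd
  have hd0 : d ∅ = 0 := by simp [hd, nn]
  have hdL : 0 ≤ d L := by
    have e1 : nn N (nn N X) = X ∪ nn N L := by
      conv_lhs => rw [hLX]
      rw [nn_union, hLX, union_assoc]
      congr 1
      exact union_eq_right.2 (subset_nn hr L)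
    have e2 : (nn N (nn N X)).card = X.card + (nn N L \ X).card := by
      rw [e1, ← card_union_of_disjoint disjoint_sdiff, union_sdiff_self_eq_union]
    have e3 : (nn N X).card = X.card + L.card := by
      rw [hLX, card_union_of_disjoint hdisj]
    unfold cc at hcon
    simp only [hd]
    zify at e2 e3
    linarith
  -- a proper minimiser
  obtain ⟨T, hTL, hTne, hTmin⟩ : ∃ T, T ⊆ L ∧ T ≠ L ∧ ∀ T', T' ⊆ L → d T ≤ d T' := by
    obtain ⟨T0, hT0, hT0min⟩ := Finset.exists_min_image L.powerset d ⟨∅, by simp⟩
    by_cases hc : T0 = L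
    · refine ⟨∅, empty_subset _, hLne.ne_empty.symm, ?_⟩
      intro T' hT'
      have h1 := hT0min T' (mem_powerset.2 hT')
      rw [hc] at h1
      rw [hd0]
      linarith
    · exact ⟨T0, mem_powerset.1 hT0, hc, fun T' hT' => hT0min T' (mem_powerset.2 hT')⟩
  set N' : V → Finset V := fun a => if a ∈ X then N a \ (L \ T) else N a with hN'
  have hN'in : ∀ a, a ∈ X → N' a = N a \ (L \ T) := fun a h => by simp [hN', h]
  have hN'out : ∀ a, a ∉ X → N' a = N a := fun a h => by simp [hN', h]
  have hsub : ∀ a, N' a ⊆ N a := by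
    intro a
    by_cases h : a ∈ X
    · rw [hN'in a h]; exact sdiff_subset
    · rw [hN'out a h]
  have hr' : ∀ a, a ∈ N' a := by
    intro a
    by_cases h : a ∈ X
    · rw [hN'in a h, mem_sdiff]
      refine ⟨hr a, fun h' => ?_⟩
      exact (Finset.disjoint_left.1 hdisj h) (mem_sdiff.1 h').1
    · rw [hN'out a h]; exact hr a
  have hne : N' ≠ N := by
    obtain ⟨z, hzL, hzT⟩ : ∃ z ∈ L, z ∉ T := by
      by_contra hc
      push Not at hc
      exact hTne (subset_antisymm hTL hc)
    have hz : z ∈ nn N X := by rw [hLX]; exact mem_union_right _ hzL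
    obtain ⟨y, hy, hzy⟩ := mem_nn.1 hz
    intro he
    have : z ∈ N' y := by rw [he]; exact hzy
    rw [hN'in y hy, mem_sdiff] at this
    exact this.2 (mem_sdiff.2 ⟨hzL, hzT⟩)
  apply hmin N' hr' hsub hne
  intro v
  by_cases hv : v ∈ X
  · set D := N v ∩ (L \ T) with hD
    have hDL : D ⊆ L := inter_subset_right.trans sdiff_subset
    have hDT : Disjoint T D := by
      rw [Finset.disjoint_left]
      intro x hx hx'
      exact (mem_sdiff.1 (mem_inter.1 hx').2).2 hx
    have c1 : (N' v).card + D.card = (N v).card := by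
      rw [hN'in v hv, hD]
      exact card_sdiff_add_card_inter _ _
    set E := nn N D \ (nn N T ∪ X) with hE
    have hEsub : E ⊆ nn N (N v) := by
      intro x hx
      rw [hE, mem_sdiff] at hx
      exact nn_mono inter_subset_left hx.1
    have hball : nn N' (N' v) ⊆ nn N (N v) \ E := by
      intro x hx
      obtain ⟨c, hc, hxc⟩ := mem_nn.1 hx
      rw [mem_sdiff]
      refine ⟨mem_nn.2 ⟨c, hsub v hc, hsub c hxc⟩, ?_⟩
      intro hxE
      rw [hE, mem_sdiff, mem_union, not_or] at hxE
      obtain ⟨_, hxT, hxX⟩ := hxE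
      have hcNX : c ∈ X ∪ L := by
        rw [← hLX]
        exact mem_nn.2 ⟨v, hv, hsub v hc⟩
      have hcn : c ∉ L \ T := by
        rw [hN'in v hv, mem_sdiff] at hc
        exact hc.2
      rcases mem_union.1 hcNX with hcX | hcL
      · have hxNX : x ∈ X ∪ L := by
          rw [← hLX]
          exact mem_nn.2 ⟨c, hcX, hsub c hxc⟩
        rw [hN'in c hcX, mem_sdiff] at hxc
        rcases mem_union.1 hxNX with h1 | h1
        · exact hxX h1
        · have : x ∈ T := by
            by_contra hc'
            exact hxc.2 (mem_sdiff.2 ⟨h1, hc'⟩)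
          exact hxT (subset_nn hr T this)
      · have hcT : c ∈ T := by
          by_contra hc'
          exact hcn (mem_sdiff.2 ⟨hcL, hc'⟩)
        exact hxT (mem_nn.2 ⟨c, hcT, hsub c hxc⟩)
    have c2 : (nn N' (N' v)).card + E.card ≤ (nn N (N v)).card := by
      have h1 := card_le_card hball
      have h2 := card_sdiff_add_card_eq_card hEsub
      omega
    have c3 : 2 * D.card ≤ E.card := by
      have h1 := hTmin (T ∪ D) (union_subset hTL hDL)
      have h2 : nn N (T ∪ D) \ X = (nn N T \ X) ∪ E := by
        rw [nn_union, hE]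
        ext x
        simp only [mem_sdiff, mem_union]
        tauto
      have h3 : Disjoint (nn N T \ X) E := by
        rw [Finset.disjoint_left]
        intro x hx hx'
        rw [hE, mem_sdiff, mem_union, not_or] at hx'
        exact hx'.2.1 (mem_sdiff.1 hx).1
      simp only [hd] at h1
      rw [h2, card_union_of_disjoint h3, card_union_of_disjoint hDT] at h1
      push_cast at h1
      zify
      linarith
    have := hce v
    omega
  · have h1 : nn N' (N' v) ⊆ nn N (N v) := by
      intro x hx
      obtain ⟨c, hc, hxc⟩ := mem_nn.1 hx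
      exact mem_nn.2 ⟨c, hsub v hc, hsub c hxc⟩
    have h2 := card_le_card h1
    have h3 := hce v
    rw [hN'out v hv] at *
    omega

/-- Seymour's conjecture in terms of closed out-neighbourhoods. -/
theorem seymour_closed [Nonempty V] : ∀ (m : ℕ) (N : V → Finset V), (∀ a, a ∈ N a) →
    (∀ a b, b ∈ N a → a ∈ N b → a = b) → ∑ a, (N a).card ≤ m →
    ∃ v, 2 * (N v).card ≤ (nn N (N v)).card + 1 := by
  classical
  intro m
  induction m with
  | zero =>
    intro N hr _ hm
    exfalso
    obtain ⟨a⟩ := ‹Nonempty V›
    have h1 : (N a).card ≤ ∑ a, (N a).card :=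
      Finset.single_le_sum (f := fun a => (N a).card) (fun _ _ => Nat.zero_le _) (mem_univ a)
    have h2 : 0 < (N a).card := card_pos.2 ⟨a, hr a⟩
    omega
  | succ m ih =>
    intro N hr ha hm
    by_contra hcon
    push Not at hcon
    refine no_strict hr ha ?_ (concave hr hcon ?_)
    · intro v
      have h1 := hcon v
      have h2 := card_le_card (subset_nn hr (N v))
      have h3 : 1 < (N v).card := by omega
      obtain ⟨u, hu, huv⟩ := Finset.exists_mem_ne h3 v
      exact ⟨u, hu, huv⟩
    · intro N' hr' hsub hne hce'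
      have hlt : ∑ a, (N' a).card < ∑ a, (N a).card := by
        obtain ⟨a, ha'⟩ : ∃ a, N' a ≠ N a := by
          by_contra hc
          push Not at hc
          exact hne (funext hc)
        apply Finset.sum_lt_sum (fun i _ => card_le_card (hsub i))
        exact ⟨a, mem_univ a, card_lt_card (lt_of_le_of_ne (hsub a) ha')⟩
      obtain ⟨v, hv⟩ := ih N' hr' (fun a b h1 h2 => ha a b (hsub a h1) (hsub b h2)) (by omega)
      have := hce' v
      omega

/-- **Seymour's second neighbourhood conjecture.** -/
theorem seymour [Nonempty V] (adj : V → V → Prop) (horient : ∀ u v, adj u v → ¬ adj v u) :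
    ∃ v : V, Set.ncard {u | adj v u} ≤
      Set.ncard {w | w ≠ v ∧ ¬ adj v w ∧ ∃ u, adj v u ∧ adj u w} := by
  classical
  let N : V → Finset V := fun a => insert a (univ.filter (fun b => adj a b))
  have hirr : ∀ a, ¬ adj a a := fun a h => horient a a h h
  have memN : ∀ a b, b ∈ N a ↔ b = a ∨ adj a b := by
    intro a b
    simp [N]
  obtain ⟨v, hv⟩ := seymour_closed (∑ a, (N a).card) N (fun a => (memN a a).2 (Or.inl rfl))
    (by
      intro a b h1 h2
      rw [memN] at h1 h2
      rcases h1 with h1 | h1
      · exact h1.symm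
      · rcases h2 with h2 | h2
        · exact h2
        · exact absurd h2 (horient a b h1)) le_rfl
  refine ⟨v, ?_⟩
  have e1 : {u | adj v u} = ((univ.filter (fun b => adj v b) : Finset V) : Set V) := by
    ext x; simp
  have e2 : {w | w ≠ v ∧ ¬ adj v w ∧ ∃ u, adj v u ∧ adj u w}
      = ((nn N (N v) \ N v : Finset V) : Set V) := by
    ext x
    simp only [Set.mem_ofPred_eq, Finset.mem_coe, mem_sdiff, mem_nn, memN]
    constructor
    · rintro ⟨h1, h2, u, h3, h4⟩
      exact ⟨⟨u, Or.inr h3, Or.inr h4⟩, by tauto⟩
    · rintro ⟨⟨u, h1, h2⟩, h3⟩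
      push Not at h3
      refine ⟨h3.1, h3.2, ?_⟩
      rcases h1 with rfl | h1
      · rcases h2 with rfl | h2
        · exact absurd rfl h3.1
        · exact absurd h2 h3.2
      · rcases h2 with rfl | h2
        · exact absurd h1 h3.2
        · exact ⟨u, h1, h2⟩
  rw [e1, e2, Set.ncard_coe_finset, Set.ncard_coe_finset]
  have c1 : (N v).card = (univ.filter (fun b => adj v b)).card + 1 := by
    apply card_insert_of_notMem
    simp [hirr v]
  have hNN : N v ⊆ nn N (N v) := subset_nn (fun a => (memN a a).2 (Or.inl rfl)) _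
  have c2 := card_sdiff_add_card_eq_card hNN
  omega

end Vale.Agent.P038.H628
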